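import Vale.Agent.Helper8.KK.Defs

/-!
P064 labour lemma (for helper8): the number of (vertex set, edge set) pairs of copies of `F`
in `G` is at most the number of subgraphs of `G` isomorphic to `F`.
-/

namespace Vale.Agent.Helper8.KK

open Finset SimpleGraph

lemma kk16_toSubgraph_adj_iff {V W : Type*} {G : SimpleGraph V} {F : SimpleGraph W}
    (f : Copy F G) (u w : V) :
    f.toSubgraph.Adj u w ↔ ∃ a b, F.Adj a b ∧ f a = u ∧ f b = w := by
  simp [Copy.toSubgraph, Subgraph.map_adj, Relation.Map]

lemma kk16_toSubgraph_verts {V W : Type*} {G : SimpleGraph V} {F : SimpleGraph W}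
    (f : Copy F G) : f.toSubgraph.verts = Set.range f := by
  simp [Copy.toSubgraph, Subgraph.map_verts]

theorem card_pairs_le_copyCount {n v : ℕ} (G : SimpleGraph (Fin n)) (F : SimpleGraph (Fin v)) :
    (pairs G F).card ≤ G.copyCount F := by
  classical
  unfold SimpleGraph.copyCount
  -- the pair (vertex set, edge set) of a subgraph
  let Φ : G.Subgraph → Finset (Fin n) × Finset (Sym2 (Fin n)) := fun G' =>
    ((Finset.univ : Finset (Fin n)).filter (fun a => a ∈ G'.verts),
     (Finset.univ : Finset (Sym2 (Fin n))).filter (fun z => z ∈ G'.edgeSet))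
  have hsub : pairs G F ⊆
      ((Finset.univ : Finset G.Subgraph).filter
        (fun G' : G.Subgraph => Nonempty (F ≃g G'.coe))).image Φ := by
    intro x hx
    unfold pairs at hx
    rw [Finset.mem_image] at hx
    obtain ⟨f, hf, rfl⟩ := hx
    rw [Finset.mem_filter] at hf
    obtain ⟨-, hinj, hhom⟩ := hf
    let c : Copy F G := ⟨⟨f, fun {a b} h => hhom a b h⟩, hinj⟩
    have hc : ∀ a, c a = f a := fun a => rfl
    have hadj : ∀ u w : Fin n, c.toSubgraph.Adj u w ↔ ∃ a b, F.Adj a b ∧ f a = u ∧ f b = w := by
      intro u w
      rw [kk16_toSubgraph_adj_iff]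
      rfl
    have hverts : ∀ u : Fin n, u ∈ c.toSubgraph.verts ↔ ∃ a, f a = u := by
      intro u
      rw [kk16_toSubgraph_verts]
      rfl
    rw [Finset.mem_image]
    refine ⟨c.toSubgraph, ?_, ?_⟩
    · rw [Finset.mem_filter]
      exact ⟨Finset.mem_univ _, ⟨c.isoToSubgraph⟩⟩
    · have h1 : (Φ c.toSubgraph).1 = (pr F f).1 := by
        have e1 : (pr F f).1 = (Finset.univ : Finset (Fin v)).image f := by
          unfold pr
          congr 1
        rw [e1]
        ext u
        show u ∈ (Finset.univ : Finset (Fin n)).filter (fun a => a ∈ c.toSubgraph.verts) ↔ _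
        rw [Finset.mem_filter, hverts, Finset.mem_image]
        constructor
        · rintro ⟨-, a, rfl⟩
          exact ⟨a, Finset.mem_univ a, rfl⟩
        · rintro ⟨a, -, rfl⟩
          exact ⟨Finset.mem_univ _, a, rfl⟩
      have h2 : (Φ c.toSubgraph).2 = (pr F f).2 := by
        have e2 : (pr F f).2 = F.edgeFinset.image (Sym2.map f) := by
          unfold pr
          congr 1
        rw [e2]
        ext z
        show z ∈ (Finset.univ : Finset (Sym2 (Fin n))).filter
          (fun z => z ∈ c.toSubgraph.edgeSet) ↔ _
        rw [Finset.mem_filter, Finset.mem_image]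
        induction z using Sym2.ind with
        | _ u w =>
          rw [Subgraph.mem_edgeSet, hadj]
          constructor
          · rintro ⟨-, a, b, hab, rfl, rfl⟩
            refine ⟨s(a, b), ?_, by rw [Sym2.map_mk]⟩
            rw [SimpleGraph.mem_edgeFinset]
            exact hab
          · rintro ⟨z', hz', hz⟩
            refine ⟨Finset.mem_univ _, ?_⟩
            induction z' using Sym2.ind with
            | _ a b =>
              have hab : F.Adj a b := by
                rw [SimpleGraph.mem_edgeFinset] at hz'
                exact hz'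
              rw [Sym2.map_mk, Sym2.eq_iff] at hz
              rcases hz with ⟨h1, h2⟩ | ⟨h1, h2⟩
              · exact ⟨a, b, hab, h1, h2⟩
              · exact ⟨b, a, hab.symm, h2, h1⟩
      exact Prod.ext h1 h2
  have h3 : (pairs G F).card ≤ ((Finset.univ : Finset G.Subgraph).filter
      (fun G' : G.Subgraph => Nonempty (F ≃g G'.coe))).card :=
    le_trans (Finset.card_le_card hsub) Finset.card_image_le
  convert h3

end Vale.Agent.Helper8.KK
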