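import Mathlib

/-!
Labour lemmas for P064 (helper16): counting adjacency-preserving maps from a finite connected
graph into a graph of bounded degree.
-/

namespace Vale.Agent.Helper16.KKTree

open Finset SimpleGraph

/-- Adjacency-preserving maps from a finite connected graph `T` on `V` (with `k + 1` vertices)
into a graph `H` on `Fin n` all of whose vertices have at most `D` neighbours: there are at most
`n * D ^ k` of them. -/
theorem hom_count_le {n : ℕ} (H : SimpleGraph (Fin n)) (D : ℕ)
    (hD : ∀ w, Set.ncard {w' | H.Adj w w'} ≤ D) :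
    ∀ (k : ℕ) (V : Type) [Finite V] (T : SimpleGraph V), Nat.card V = k + 1 → T.Connected →
      Nat.card {f : V → Fin n // ∀ a b, T.Adj a b → H.Adj (f a) (f b)} ≤ n * D ^ k := by
  classical
  intro k
  induction k with
  | zero =>
    intro V _ T hV hT
    have := Fintype.ofFinite V
    obtain ⟨v0⟩ := hT.nonempty
    have h1 : Fintype.card V = 1 := by rw [← Nat.card_eq_fintype_card]; exact hV
    have huniq : ∀ a : V, a = v0 := fun a => (Fintype.card_le_one_iff.mp h1.le) a v0
    have h2 : Nat.card {f : V → Fin n // ∀ a b, T.Adj a b → H.Adj (f a) (f b)}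
        ≤ Nat.card (Fin n) := by
      apply Nat.card_le_card_of_injective (fun f => f.1 v0)
      intro f g hfg
      apply Subtype.ext
      funext a
      rw [huniq a]
      exact hfg
    simpa using h2
  | succ k ih =>
    intro V _ T hV hT
    have := Fintype.ofFinite V
    have hcardV : Fintype.card V = k + 2 := by rw [← Nat.card_eq_fintype_card]; exact hV
    have : Nontrivial V := Fintype.one_lt_card_iff_nontrivial.mp (by omega)
    obtain ⟨v, hv⟩ := hT.exists_connected_induce_compl_singleton_of_finite_nontrivial
    obtain ⟨u, huv⟩ : ∃ u, T.Adj v u := by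
      obtain ⟨w, hw⟩ := exists_ne v
      obtain ⟨p⟩ := hT.preconnected v w
      cases p with
      | nil => exact absurd rfl hw
      | cons h _ => exact ⟨_, h⟩
    have hune : u ≠ v := (T.ne_of_adj huv).symm
    have hcard' : Nat.card ↥({v}ᶜ : Set V) = k + 1 := by
      rw [Nat.card_coe_set_eq, Set.ncard_compl, Set.ncard_singleton, hV]
      omega
    have ih' := ih ↥({v}ᶜ : Set V) (T.induce {v}ᶜ) hcard' hv
    set A := {f : V → Fin n // ∀ a b, T.Adj a b → H.Adj (f a) (f b)} with hA
    set B := {g : ↥({v}ᶜ : Set V) → Fin n //
      ∀ a b, (T.induce {v}ᶜ).Adj a b → H.Adj (g a) (g b)} with hB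
    let r : A → B := fun f => ⟨fun a => f.1 a.1, fun a b hab => f.2 a.1 b.1 hab⟩
    have : Fintype A := Fintype.ofFinite A
    have : Fintype B := Fintype.ofFinite B
    have hfib : ∀ b ∈ (Finset.univ : Finset A).image r,
        ((Finset.univ : Finset A).filter (fun x => r x = b)).card ≤ D := by
      intro b _
      have hinj : ((Finset.univ : Finset A).filter (fun x => r x = b)).card
          ≤ ((Finset.univ : Finset (Fin n)).filter (fun w' => H.Adj (b.1 ⟨u, hune⟩) w')).card := by
        apply Finset.card_le_card_of_injOn (fun f => f.1 v)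
        · intro f hf
          simp only [Finset.coe_filter, Finset.mem_univ, true_and, Set.mem_ofPred_eq] at hf ⊢
          have h3 : H.Adj (f.1 u) (f.1 v) := f.2 u v huv.symm
          rw [← hf]
          exact h3
        · intro f hf g hg hfg
          simp only [Finset.coe_filter, Finset.mem_univ, true_and, Set.mem_ofPred_eq] at hf hg
          apply Subtype.ext
          funext a
          by_cases ha : a = v
          · rw [ha]; exact hfg
          · have h4 : (r f).1 ⟨a, ha⟩ = (r g).1 ⟨a, ha⟩ := by rw [hf, hg]
            exact h4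
      refine hinj.trans ?_
      have h5 : ((Finset.univ : Finset (Fin n)).filter (fun w' => H.Adj (b.1 ⟨u, hune⟩) w')).card
          = Set.ncard {w' | H.Adj (b.1 ⟨u, hune⟩) w'} := by
        rw [← Set.ncard_coe_finset]
        congr 1
        ext x
        simp
      rw [h5]
      exact hD _
    have h1 := Finset.card_le_mul_card_image (Finset.univ : Finset A) D hfib
    have h2 : ((Finset.univ : Finset A).image r).card ≤ Fintype.card B := Finset.card_le_univ _
    have h3 : Nat.card A = Fintype.card A := Nat.card_eq_fintype_card
    have h4 : Nat.card B = Fintype.card B := Nat.card_eq_fintype_card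
    calc Nat.card A = (Finset.univ : Finset A).card := by rw [h3, Finset.card_univ]
      _ ≤ D * ((Finset.univ : Finset A).image r).card := h1
      _ ≤ D * Fintype.card B := Nat.mul_le_mul_left _ h2
      _ = D * Nat.card B := by rw [h4]
      _ ≤ D * (n * D ^ k) := Nat.mul_le_mul_left _ ih'
      _ = n * D ^ (k + 1) := by ring

/-- Injective adjacency-preserving maps from a connected graph `F` on `Fin v` into a graph `H`
on `Fin n` in which every vertex has at most `D` neighbours: at most `n * D ^ (v - 1)`. -/
theorem inj_hom_ncard_le {n v : ℕ} (H : SimpleGraph (Fin n)) (F : SimpleGraph (Fin v))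
    (hF : F.Connected) (D : ℕ) (hD : ∀ w, Set.ncard {w' | H.Adj w w'} ≤ D) :
    Nat.card {f : Fin v → Fin n //
      Function.Injective f ∧ ∀ a b, F.Adj a b → H.Adj (f a) (f b)} ≤ n * D ^ (v - 1) := by
  obtain ⟨a0⟩ := hF.nonempty
  have hv : 1 ≤ v := by
    have := a0.isLt
    omega
  have hcard : Nat.card (Fin v) = (v - 1) + 1 := by
    rw [Nat.card_eq_fintype_card, Fintype.card_fin]
    omega
  refine le_trans ?_ (hom_count_le H D hD (v - 1) (Fin v) F hcard hF)
  apply Nat.card_le_card_of_injective
    (fun f : {f : Fin v → Fin n //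
        Function.Injective f ∧ ∀ a b, F.Adj a b → H.Adj (f a) (f b)} =>
      (⟨f.1, f.2.2⟩ : {f : Fin v → Fin n // ∀ a b, F.Adj a b → H.Adj (f a) (f b)}))
  intro f g hfg
  apply Subtype.ext
  have h6 := congrArg (fun t : {f : Fin v → Fin n // ∀ a b, F.Adj a b → H.Adj (f a) (f b)} =>
    t.1) hfg
  exact h6

/-- The same bound for the finset of injective adjacency-preserving maps (any decidability
instance), with the degree hypothesis stated through `SimpleGraph.degree`. -/
theorem inj_hom_card_le {n v : ℕ} (H : SimpleGraph (Fin n)) [DecidableRel H.Adj]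
    (F : SimpleGraph (Fin v)) (hF : F.Connected) (D : ℕ) (hD : ∀ w, H.degree w ≤ D)
    [DecidablePred (fun f : Fin v → Fin n =>
      Function.Injective f ∧ ∀ a b, F.Adj a b → H.Adj (f a) (f b))] :
    ((Finset.univ : Finset (Fin v → Fin n)).filter
      (fun f => Function.Injective f ∧ ∀ a b, F.Adj a b → H.Adj (f a) (f b))).card
      ≤ n * D ^ (v - 1) := by
  have hD' : ∀ w, Set.ncard {w' | H.Adj w w'} ≤ D := by
    intro w
    have h1 : Set.ncard {w' | H.Adj w w'} = H.degree w := by
      rw [← SimpleGraph.card_neighborFinset_eq_degree, ← Set.ncard_coe_finset]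
      congr 1
      ext x
      simp
    rw [h1]
    exact hD w
  have h2 := inj_hom_ncard_le H F hF D hD'
  rw [Nat.card_eq_fintype_card, Fintype.card_subtype] at h2
  exact h2

end Vale.Agent.Helper16.KKTree
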