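import Mathlib

/-!
A finite minimax lemma (one player has finitely many pure strategies, the other any
convex set of payoff vectors), proved by separating a convex set from an open orthant.
-/

namespace Vale.Agent.Helper16

open Finset

/-- **Finite minimax.**  Let `K` be a convex set of vectors indexed by a finite nonempty
type `I`.  If every vector of `K` has some coordinate at most `c`, then one probability
vector `p` on `I` satisfies `∑ i, p i * y i ≤ c` for every `y ∈ K`. -/
theorem minimax_convex {I : Type*} [Fintype I] [Nonempty I] (K : Set (I → ℝ))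
    (hK : Convex ℝ K) (c : ℝ) (h : ∀ y ∈ K, ∃ i, y i ≤ c) :
    ∃ p : I → ℝ, (∀ i, 0 ≤ p i) ∧ ∑ i, p i = 1 ∧ ∀ y ∈ K, ∑ i, p i * y i ≤ c := by
  classical
  rcases K.eq_empty_or_nonempty with hKe | ⟨y0, hy0⟩
  · obtain ⟨i0⟩ := ‹Nonempty I›
    refine ⟨fun i => if i = i0 then 1 else 0, fun i => by dsimp only; split_ifs <;> norm_num, by simp, ?_⟩
    intro y hy
    rw [hKe] at hy
    exact absurd hy (Set.notMem_empty y)
  -- the open convex set of vectors with all coordinates above `c`
  set D : Set (I → ℝ) := Set.pi Set.univ (fun _ : I => Set.Ioi c) with hD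
  have hDc : Convex ℝ D := convex_pi fun i _ => convex_Ioi c
  have hDo : IsOpen D := isOpen_set_pi Set.finite_univ fun i _ => isOpen_Ioi
  have hdisj : Disjoint D K := by
    rw [Set.disjoint_left]
    intro y hyD hyK
    obtain ⟨i, hi⟩ := h y hyK
    have : c < y i := hyD i (Set.mem_univ i)
    exact absurd this (not_lt.mpr hi)
  obtain ⟨f, u, hfD, hfK⟩ := geometric_hahn_banach_open hDc hDo hK hdisj
  -- coordinates of the separating functional
  set q : I → ℝ := fun i => f (fun j => if i = j then (1 : ℝ) else 0) with hq
  have hrep : ∀ y : I → ℝ, f y = ∑ i, y i * q i := by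
    intro y
    have := (f : (I → ℝ) →ₗ[ℝ] ℝ).pi_apply_eq_sum_univ y
    simpa [smul_eq_mul] using this
  set Q : ℝ := ∑ i, q i with hQ
  have hconst : ∀ a : ℝ, f (fun _ => a) = a * Q := by
    intro a
    rw [hrep, hQ, Finset.mul_sum]
  -- all coordinates are nonpositive
  have hq0 : ∀ i, q i ≤ 0 := by
    intro i
    by_contra hcon
    rw [not_le] at hcon
    set t : ℝ := |u - (c + 1) * Q| / q i with ht
    have ht0 : 0 ≤ t := div_nonneg (abs_nonneg _) hcon.le
    set d : I → ℝ := fun j => c + 1 + (if j = i then t else 0) with hd
    have hdD : d ∈ D := by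
      intro j _
      simp only [hd, Set.mem_Ioi]
      split_ifs <;> linarith
    have hfd : f d = (c + 1) * Q + t * q i := by
      rw [hrep]
      have : ∀ j, d j * q j = (c + 1) * q j + (if j = i then t * q i else 0) := by
        intro j
        simp only [hd]
        split_ifs with hji
        · subst hji; ring
        · ring
      have e1 : ∑ j, (if j = i then t * q i else 0) = t * q i := by simp
      rw [Finset.sum_congr rfl fun j _ => this j, Finset.sum_add_distrib, ← Finset.mul_sum, e1]
    have htq : t * q i = |u - (c + 1) * Q| := by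
      rw [ht]; field_simp
    have := hfD d hdD
    rw [hfd, htq] at this
    have := le_abs_self (u - (c + 1) * Q)
    linarith
  set p : I → ℝ := fun i => - q i with hp
  have hp0 : ∀ i, 0 ≤ p i := fun i => by simp only [hp]; linarith [hq0 i]
  set P : ℝ := ∑ i, p i with hP
  have hPQ : P = - Q := by rw [hP, hQ]; simp [hp]
  have hP0 : 0 ≤ P := Finset.sum_nonneg fun i _ => hp0 i
  have hKu : ∀ y ∈ K, ∑ i, p i * y i ≤ - u := by
    intro y hy
    have h1 := hfK y hy
    rw [hrep] at h1
    have : ∑ i, p i * y i = - ∑ i, y i * q i := by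
      rw [← Finset.sum_neg_distrib]
      exact Finset.sum_congr rfl fun i _ => by simp only [hp]; ring
    rw [this]; linarith
  have hDu : ∀ ε : ℝ, 0 < ε → - ((c + ε) * P) < u := by
    intro ε hε
    have hmem : (fun _ : I => c + ε) ∈ D := by
      intro j _
      simp only [Set.mem_Ioi]; linarith
    have := hfD _ hmem
    rw [hconst, ← neg_neg Q, ← hPQ] at this
    linarith
  have hPpos : 0 < P := by
    rcases hP0.lt_or_eq with hlt | heq
    · exact hlt
    · exfalso
      have hp_zero : ∀ i, p i = 0 := by
        intro i
        have := (Finset.sum_eq_zero_iff_of_nonneg fun j _ => hp0 j).mp heq.symm i (Finset.mem_univ i)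
        exact this
      have h1 := hKu y0 hy0
      simp only [hp_zero, zero_mul, Finset.sum_const_zero] at h1
      have h2 := hDu 1 one_pos
      rw [← heq] at h2
      linarith
  have hcu : - u ≤ c * P := by
    by_contra hcon
    rw [not_le] at hcon
    -- choose ε with ε * P < -u - c * P
    set ε : ℝ := (- u - c * P) / (2 * P) with hε
    have hεpos : 0 < ε := div_pos (by linarith) (by linarith)
    have h2 := hDu ε hεpos
    have : ε * P = (- u - c * P) / 2 := by rw [hε]; field_simp
    nlinarith
  refine ⟨fun i => p i / P, fun i => div_nonneg (hp0 i) hPpos.le, ?_, ?_⟩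
  · rw [← Finset.sum_div, ← hP]
    exact div_self hPpos.ne'
  · intro y hy
    have h1 := hKu y hy
    have : ∑ i, p i / P * y i = (∑ i, p i * y i) / P := by
      rw [Finset.sum_div]
      exact Finset.sum_congr rfl fun i _ => by ring
    rw [this, div_le_iff₀ hPpos]
    linarith

end Vale.Agent.Helper16
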