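import Mathlib

/-!
Bridge between the hyperbolic variables (lam, mu, v_k) and the rational variables
(Q = exp (-lam), g = exp (-mu), a_k = exp (-2 v_k)) of the W_n inequality.
-/

namespace Vale.Agent.Helper16.WnBridge

open Real

theorem exp_neg_two_mul (l : ℝ) : exp (-(2 * l)) = exp (-l) ^ 2 := by
  rw [sq, ← exp_add]
  congr 1
  ring

theorem sinh_of_exp (l : ℝ) : sinh l = ((exp (-l))⁻¹ - exp (-l)) / 2 := by
  rw [sinh_eq, exp_neg, inv_inv]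

theorem cosh_of_exp (l : ℝ) : cosh l = ((exp (-l))⁻¹ + exp (-l)) / 2 := by
  rw [cosh_eq, exp_neg, inv_inv]

theorem x_rs (r s : ℝ) (hr : 0 < r) (hr1 : r < 1) (hs : 0 < s) (hs1 : s ≤ 1) :
    ((s⁻¹ - s) / 2) / (((r⁻¹ - r) / 2) * (((r * s)⁻¹ - r * s) / 2))
      = 2 * r ^ 2 * (1 - s ^ 2) / ((1 - r ^ 2) * (1 - r ^ 2 * s ^ 2)) := by
  have h1 : 1 - r ^ 2 ≠ 0 := by nlinarith
  have h2 : 1 - r ^ 2 * s ^ 2 ≠ 0 := by
    have : r * s < 1 := by nlinarith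
    have h3 : 0 < r * s := mul_pos hr hs
    nlinarith
  have a1 : s⁻¹ - s = (1 - s ^ 2) / s := by field_simp
  have a2 : r⁻¹ - r = (1 - r ^ 2) / r := by field_simp
  have a3 : (r * s)⁻¹ - r * s = (1 - r ^ 2 * s ^ 2) / (r * s) := by field_simp
  rw [a1, a2, a3]
  field_simp

theorem z_rs (r s : ℝ) (hr : 0 < r) (hs : 0 < s) :
    ((s⁻¹ - s) / 2) / (((r⁻¹ + r) / 2) * (((r * s)⁻¹ + r * s) / 2))
      = 2 * r ^ 2 * (1 - s ^ 2) / ((1 + r ^ 2) * (1 + r ^ 2 * s ^ 2)) := by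
  have h1 : 1 + r ^ 2 ≠ 0 := by positivity
  have h2 : 1 + r ^ 2 * s ^ 2 ≠ 0 := by positivity
  have a1 : s⁻¹ - s = (1 - s ^ 2) / s := by field_simp
  have a2 : r⁻¹ + r = (1 + r ^ 2) / r := by field_simp
  have a3 : (r * s)⁻¹ + r * s = (1 + r ^ 2 * s ^ 2) / (r * s) := by field_simp
  rw [a1, a2, a3]
  field_simp

theorem x_exp (l v : ℝ) (hl : 0 < l) (hv : 0 ≤ v) :
    sinh v / (sinh l * sinh (l + v))
      = 2 * exp (-(2 * l)) * (1 - exp (-(2 * v)))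
          / ((1 - exp (-(2 * l))) * (1 - exp (-(2 * l)) * exp (-(2 * v)))) := by
  have hE1 : exp (-l) < 1 := by
    rw [exp_lt_one_iff]
    linarith
  have hF1 : exp (-v) ≤ 1 := by
    rw [exp_le_one_iff]
    linarith
  have e3 : exp (-(l + v)) = exp (-l) * exp (-v) := by
    rw [neg_add, exp_add]
  rw [sinh_of_exp v, sinh_of_exp l, sinh_of_exp (l + v), e3, exp_neg_two_mul l, exp_neg_two_mul v]
  exact x_rs (exp (-l)) (exp (-v)) (exp_pos _) hE1 (exp_pos _) hF1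

theorem z_exp (l v : ℝ) :
    sinh v / (cosh l * cosh (l + v))
      = 2 * exp (-(2 * l)) * (1 - exp (-(2 * v)))
          / ((1 + exp (-(2 * l))) * (1 + exp (-(2 * l)) * exp (-(2 * v)))) := by
  have e3 : exp (-(l + v)) = exp (-l) * exp (-v) := by
    rw [neg_add, exp_add]
  rw [sinh_of_exp v, cosh_of_exp l, cosh_of_exp (l + v), e3, exp_neg_two_mul l, exp_neg_two_mul v]
  exact z_rs (exp (-l)) (exp (-v)) (exp_pos _) (exp_pos _)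

theorem final_alg (Q g T S : ℝ) (hQ : 0 < Q) (hQ1 : Q < 1) (hg : 0 < g) :
    (1 - Q ^ 2 * g ^ 2) * ((T + S) / (2 * Q) + Q ^ 2 * ((T - S) / (2 * Q ^ 2)))
        + (1 + g ^ 2) * Q ^ 2 * (4 * (((1 + Q) * S - (1 - Q) * T) / (2 * Q ^ 2))
            + ((T + S) / (2 * Q)) ^ 2 - Q ^ 2 * ((T - S) / (2 * Q ^ 2)) ^ 2)
        - 4 * (g ^ 2 - Q ^ 2)
      = 2 * Q * g * (1 / 2 * ((Q⁻¹ - Q) / 2) * (((Q * g)⁻¹ - Q * g) / 2)
              * (2 * T / (1 - Q) + 2 * S / (1 + Q))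
            + 4 * ((g⁻¹ + g) / 2) * ((1 + Q) ^ 2 / (4 * Q) * (2 * S / (1 + Q))
                - (1 - Q) ^ 2 / (4 * Q) * (2 * T / (1 - Q)))
            + 1 / 2 * ((Q⁻¹ - Q) / 2) * ((g⁻¹ + g) / 2) * ((2 * T / (1 - Q)) * (2 * S / (1 + Q)))
            - 4 * (((Q * g⁻¹)⁻¹ - Q * g⁻¹) / 2)) := by
  have h1 : 1 - Q ≠ 0 := by linarith
  have h2 : 1 + Q ≠ 0 := by linarith
  have h3 : Q ≠ 0 := hQ.ne'
  have h4 : g ≠ 0 := hg.ne'
  field_simp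
  ring

theorem final_step (Q g T S : ℝ) (hQ : 0 < Q) (hQ1 : Q < 1) (hg : 0 < g)
    (h : 4 * (((Q * g⁻¹)⁻¹ - Q * g⁻¹) / 2)
      ≤ 1 / 2 * ((Q⁻¹ - Q) / 2) * (((Q * g)⁻¹ - Q * g) / 2)
              * (2 * T / (1 - Q) + 2 * S / (1 + Q))
            + 4 * ((g⁻¹ + g) / 2) * ((1 + Q) ^ 2 / (4 * Q) * (2 * S / (1 + Q))
                - (1 - Q) ^ 2 / (4 * Q) * (2 * T / (1 - Q)))
            + 1 / 2 * ((Q⁻¹ - Q) / 2) * ((g⁻¹ + g) / 2)
                * ((2 * T / (1 - Q)) * (2 * S / (1 + Q)))) :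
    4 * (g ^ 2 - Q ^ 2)
      ≤ (1 - Q ^ 2 * g ^ 2) * ((T + S) / (2 * Q) + Q ^ 2 * ((T - S) / (2 * Q ^ 2)))
        + (1 + g ^ 2) * Q ^ 2 * (4 * (((1 + Q) * S - (1 - Q) * T) / (2 * Q ^ 2))
            + ((T + S) / (2 * Q)) ^ 2 - Q ^ 2 * ((T - S) / (2 * Q ^ 2)) ^ 2) := by
  have key := final_alg Q g T S hQ hQ1 hg
  have hpos : 0 < 2 * Q * g := by positivity
  have h2 := mul_nonneg hpos.le (sub_nonneg.mpr h)
  linarith

theorem term_U0 (Q a : ℝ) (hQ : 0 < Q) (hQ1 : Q < 1) (ha : 0 < a) (ha1 : a ≤ 1) :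
    (1 - a) / (1 - Q ^ 2 * a ^ 2)
      = (Q * (1 - a) / (1 - Q * a) + Q * (1 - a) / (1 + Q * a)) / (2 * Q) := by
  have hQa : Q * a < 1 := by nlinarith
  have hQa0 : 0 < Q * a := mul_pos hQ ha
  have h1 : 1 - Q * a ≠ 0 := by linarith
  have h2 : 1 + Q * a ≠ 0 := by linarith
  have h1' : 1 - a * Q ≠ 0 := by rw [mul_comm]; exact h1
  have e : 1 - Q ^ 2 * a ^ 2 = (1 - Q * a) * (1 + Q * a) := by ring
  rw [e]
  field_simp
  ring

theorem term_U1 (Q a : ℝ) (hQ : 0 < Q) (hQ1 : Q < 1) (ha : 0 < a) (ha1 : a ≤ 1) :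
    a * (1 - a) / (1 - Q ^ 2 * a ^ 2)
      = (Q * (1 - a) / (1 - Q * a) - Q * (1 - a) / (1 + Q * a)) / (2 * Q ^ 2) := by
  have hQa : Q * a < 1 := by nlinarith
  have hQa0 : 0 < Q * a := mul_pos hQ ha
  have h1 : 1 - Q * a ≠ 0 := by linarith
  have h2 : 1 + Q * a ≠ 0 := by linarith
  have h1' : 1 - a * Q ≠ 0 := by rw [mul_comm]; exact h1
  have e : 1 - Q ^ 2 * a ^ 2 = (1 - Q * a) * (1 + Q * a) := by ring
  rw [e]
  field_simp
  ring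

theorem term_L (Q a : ℝ) (hQ : 0 < Q) (hQ1 : Q < 1) (ha : 0 < a) (ha1 : a ≤ 1) :
    (1 - a) ^ 2 / (1 - Q ^ 2 * a ^ 2)
      = ((1 + Q) * (Q * (1 - a) / (1 + Q * a)) - (1 - Q) * (Q * (1 - a) / (1 - Q * a)))
          / (2 * Q ^ 2) := by
  have hQa : Q * a < 1 := by nlinarith
  have hQa0 : 0 < Q * a := mul_pos hQ ha
  have h1 : 1 - Q * a ≠ 0 := by linarith
  have h2 : 1 + Q * a ≠ 0 := by linarith
  have h1' : 1 - a * Q ≠ 0 := by rw [mul_comm]; exact h1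
  have e : 1 - Q ^ 2 * a ^ 2 = (1 - Q * a) * (1 + Q * a) := by ring
  rw [e]
  field_simp
  ring

theorem term_X (Q a : ℝ) (hQ : 0 < Q) (hQ1 : Q < 1) (ha1 : a ≤ 1) :
    2 * Q * (1 - a) / ((1 - Q) * (1 - Q * a)) = 2 * (Q * (1 - a) / (1 - Q * a)) / (1 - Q) := by
  have hQa : Q * a < 1 := by nlinarith [ha1, hQ, hQ1]
  have h1 : 1 - Q * a ≠ 0 := by linarith
  have h2 : 1 - Q ≠ 0 := by linarith
  field_simp

theorem term_Z (Q a : ℝ) (hQ : 0 < Q) (ha : 0 < a) :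
    2 * Q * (1 - a) / ((1 + Q) * (1 + Q * a)) = 2 * (Q * (1 - a) / (1 + Q * a)) / (1 + Q) := by
  have hQa0 : 0 < Q * a := mul_pos hQ ha
  have h1 : 1 + Q * a ≠ 0 := by linarith
  have h2 : 1 + Q ≠ 0 := by linarith
  field_simp

/-- The rational inequality (starW) follows from the hyperbolic inequality `G ≥ 0`
(taken here as a hypothesis in the shape of `Vale.Agent.Helper13.StarW.G_nonneg`). -/
theorem starW_of_G {ι : Type*} (R : Finset ι)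
    (hG : ∀ (v : ι → ℝ) (lam mu X Z : ℝ), 0 < mu →
      (∀ k ∈ R, 0 ≤ v k ∧ v k ≤ mu / 2) → lam = mu + ∑ k ∈ R, v k →
      X = ∑ k ∈ R, sinh (v k) / (sinh (lam / 2) * sinh (lam / 2 + v k)) →
      Z = ∑ k ∈ R, sinh (v k) / (cosh (lam / 2) * cosh (lam / 2 + v k)) →
      4 * sinh (lam - mu) ≤ 1 / 2 * sinh lam * sinh (lam + mu) * (X + Z)
        + 4 * cosh mu * (cosh (lam / 2) ^ 2 * Z - sinh (lam / 2) ^ 2 * X)
        + 1 / 2 * sinh lam * cosh mu * (X * Z))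
    (a : ι → ℝ) (c p U0 U1 L : ℝ) (hc0 : 0 < c) (hc1 : c < 1)
    (ha : ∀ k ∈ R, c ≤ a k ^ 2 ∧ 0 < a k ∧ a k ≤ 1) (hp : p = c * ∏ k ∈ R, a k)
    (hU0 : U0 = ∑ k ∈ R, (1 - a k) / (1 - p * a k ^ 2))
    (hU1 : U1 = ∑ k ∈ R, a k * (1 - a k) / (1 - p * a k ^ 2))
    (hL : L = ∑ k ∈ R, (1 - a k) ^ 2 / (1 - p * a k ^ 2)) :
    4 * (c - p) ≤ (1 - p * c) * (U0 + p * U1) + (1 + c) * p * (4 * L + U0 ^ 2 - p * U1 ^ 2) := by
  obtain ⟨mu, hmu_def⟩ : ∃ mu : ℝ, mu = -log c / 2 := ⟨_, rfl⟩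
  obtain ⟨v, hv_def⟩ : ∃ v : ι → ℝ, ∀ k, v k = -log (a k) / 2 := ⟨fun k => -log (a k) / 2, fun _ => rfl⟩
  obtain ⟨lam, hlam⟩ : ∃ lam : ℝ, lam = mu + ∑ k ∈ R, v k := ⟨_, rfl⟩
  have hmu : 0 < mu := by
    have := Real.log_neg hc0 hc1
    rw [hmu_def]
    linarith
  have hv : ∀ k ∈ R, 0 ≤ v k ∧ v k ≤ mu / 2 := by
    intro k hk
    obtain ⟨h1, h2, h3⟩ := ha k hk
    have l1 : log (a k) ≤ 0 := Real.log_nonpos h2.le h3
    have l2 : log c ≤ log (a k ^ 2) := Real.log_le_log hc0 h1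
    rw [Real.log_pow] at l2
    push_cast at l2
    rw [hv_def k, hmu_def]
    constructor <;> linarith
  have hG' := hG v lam mu _ _ hmu hv hlam rfl rfl
  obtain ⟨Q, hQdef⟩ : ∃ Q : ℝ, Q = exp (-lam) := ⟨_, rfl⟩
  obtain ⟨g, hgdef⟩ : ∃ g : ℝ, g = exp (-mu) := ⟨_, rfl⟩
  have hQ0 : 0 < Q := by rw [hQdef]; exact exp_pos _
  have hg0 : 0 < g := by rw [hgdef]; exact exp_pos _
  have hsum_nonneg : 0 ≤ ∑ k ∈ R, v k := Finset.sum_nonneg (fun k hk => (hv k hk).1)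
  have hlam0 : 0 < lam := by rw [hlam]; linarith
  have hQ1 : Q < 1 := by rw [hQdef, exp_lt_one_iff]; linarith
  have hg2 : g ^ 2 = c := by
    rw [hgdef, ← exp_neg_two_mul, hmu_def]
    have e : -(2 * (-log c / 2)) = log c := by ring
    rw [e, exp_log hc0]
  have hak : ∀ k ∈ R, exp (-(2 * v k)) = a k := by
    intro k hk
    rw [hv_def k]
    have e : -(2 * (-log (a k) / 2)) = log (a k) := by ring
    rw [e, exp_log (ha k hk).2.1]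
  have hQ2 : Q ^ 2 = p := by
    rw [hQdef, ← exp_neg_two_mul, hlam, hp]
    have e : -(2 * (mu + ∑ k ∈ R, v k)) = -(2 * mu) + ∑ k ∈ R, -(2 * v k) := by
      rw [Finset.sum_neg_distrib, ← Finset.mul_sum]
      ring
    rw [e, exp_add, exp_sum, exp_neg_two_mul, ← hgdef, hg2]
    congr 1
    exact Finset.prod_congr rfl hak
  -- the two sums T, S
  obtain ⟨T, hT⟩ : ∃ T : ℝ, T = ∑ k ∈ R, Q * (1 - a k) / (1 - Q * a k) := ⟨_, rfl⟩
  obtain ⟨S, hS⟩ : ∃ S : ℝ, S = ∑ k ∈ R, Q * (1 - a k) / (1 + Q * a k) := ⟨_, rfl⟩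
  have eQ : exp (-(2 * (lam / 2))) = Q := by
    rw [hQdef]
    congr 1
    ring
  have hX : (∑ k ∈ R, sinh (v k) / (sinh (lam / 2) * sinh (lam / 2 + v k)))
      = 2 * T / (1 - Q) := by
    rw [hT, Finset.mul_sum, Finset.sum_div]
    apply Finset.sum_congr rfl
    intro k hk
    rw [x_exp (lam / 2) (v k) (by linarith) (hv k hk).1, eQ, hak k hk]
    exact term_X Q (a k) hQ0 hQ1 (ha k hk).2.2
  have hZ : (∑ k ∈ R, sinh (v k) / (cosh (lam / 2) * cosh (lam / 2 + v k)))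
      = 2 * S / (1 + Q) := by
    rw [hS, Finset.mul_sum, Finset.sum_div]
    apply Finset.sum_congr rfl
    intro k hk
    rw [z_exp (lam / 2) (v k), eQ, hak k hk]
    exact term_Z Q (a k) hQ0 (ha k hk).2.1
  have hU0' : U0 = (T + S) / (2 * Q) := by
    rw [hU0, hT, hS, ← Finset.sum_add_distrib, Finset.sum_div]
    apply Finset.sum_congr rfl
    intro k hk
    rw [← hQ2]
    exact term_U0 Q (a k) hQ0 hQ1 (ha k hk).2.1 (ha k hk).2.2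
  have hU1' : U1 = (T - S) / (2 * Q ^ 2) := by
    rw [hU1, hT, hS, ← Finset.sum_sub_distrib, Finset.sum_div]
    apply Finset.sum_congr rfl
    intro k hk
    rw [← hQ2]
    exact term_U1 Q (a k) hQ0 hQ1 (ha k hk).2.1 (ha k hk).2.2
  have hL' : L = ((1 + Q) * S - (1 - Q) * T) / (2 * Q ^ 2) := by
    rw [hL, hT, hS, Finset.mul_sum, Finset.mul_sum, ← Finset.sum_sub_distrib, Finset.sum_div]
    apply Finset.sum_congr rfl
    intro k hk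
    rw [← hQ2]
    exact term_L Q (a k) hQ0 hQ1 (ha k hk).2.1 (ha k hk).2.2
  -- hyperbolic scalars
  have hs1 : sinh lam = (Q⁻¹ - Q) / 2 := by rw [sinh_of_exp, ← hQdef]
  have hs2 : sinh (lam + mu) = ((Q * g)⁻¹ - Q * g) / 2 := by
    rw [sinh_of_exp, neg_add, exp_add, ← hQdef, ← hgdef]
  have hc3 : cosh mu = (g⁻¹ + g) / 2 := by rw [cosh_of_exp, ← hgdef]
  have hs4 : sinh (lam - mu) = ((Q * g⁻¹)⁻¹ - Q * g⁻¹) / 2 := by
    have e : exp (-(lam - mu)) = Q * g⁻¹ := by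
      have e1 : -(lam - mu) = -lam + mu := by ring
      rw [e1, exp_add, ← hQdef, hgdef, exp_neg, inv_inv]
    rw [sinh_of_exp, e]
  have hE2 : exp (-(lam / 2)) ^ 2 = Q := by
    rw [← exp_neg_two_mul, eQ]
  have hE0 : 0 < exp (-(lam / 2)) := exp_pos _
  have hc5 : cosh (lam / 2) ^ 2 = (1 + Q) ^ 2 / (4 * Q) := by
    rw [cosh_of_exp, ← hE2]
    field_simp
    ring
  have hs6 : sinh (lam / 2) ^ 2 = (1 - Q) ^ 2 / (4 * Q) := by
    rw [sinh_of_exp, ← hE2]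
    field_simp
    ring
  rw [hX, hZ, hs1, hs2, hc3, hs4, hc5, hs6] at hG'
  rw [hU0', hU1', hL', ← hQ2, ← hg2]
  exact final_step Q g T S hQ0 hQ1 hg0 hG'

end Vale.Agent.Helper16.WnBridge
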